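import Mathlib

/-! Row 110: exact factorisation (Pedersen 1.4.4, Kirchberg–Rørdam 2.2). -/

set_option autoImplicit false

namespace Crest.Agent.CStarFac

open Filter Topology

variable {A : Type*} [CStarAlgebra A] [PartialOrder A] [StarOrderedRing A]

namespace FacX

omit [PartialOrder A] [StarOrderedRing A] in
theorem conj {c : A} (hc : IsSelfAdjoint c) {g : ℝ → ℝ} (hg : ContinuousOn g (spectrum ℝ c)) :
    cfc (fun t => g t * t * g t) c = cfc g c * c * cfc g c := by
  rw [cfc_mul (fun t => g t * t) g c (hg.mul continuousOn_id) hg,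
    cfc_mul g (fun t => t) c hg continuousOn_id, cfc_id' ℝ c]

theorem bound {c p s : A} (hc : 0 ≤ c) (hp : 0 ≤ p) (hpc : p ≤ c) (hs : IsSelfAdjoint s)
    (hss : s * s = p) {u : ℝ → ℝ} (hu : ContinuousOn u (Set.Ici 0)) {η : ℝ} (hη : 0 ≤ η)
    (h : ∀ t, 0 ≤ t → 0 ≤ u t ∧ u t * t ≤ η) : ‖s * cfc u c * s‖ ≤ η := by
  have hσ : spectrum ℝ c ⊆ Set.Ici 0 := fun t ht => spectrum_nonneg_of_nonneg hc ht
  have hk : ContinuousOn (fun t => √(u t)) (spectrum ℝ c) := (hu.mono hσ).sqrt
  set K := cfc (fun t => √(u t)) c with hK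
  have hKs : IsSelfAdjoint K := cfc_predicate _ _
  have e1 : cfc u c = K * K := by
    rw [hK, ← cfc_mul _ _ c hk hk]
    exact cfc_congr fun t ht => (Real.mul_self_sqrt (h t (hσ ht)).1).symm
  have e2 : K * c * K = cfc (fun t => √(u t) * t * √(u t)) c := (conj hc.isSelfAdjoint hk).symm
  calc ‖s * cfc u c * s‖ = ‖star (K * s) * (K * s)‖ := by
        rw [e1, star_mul, hs.star_eq, hKs.star_eq]; simp only [mul_assoc]
    _ = ‖(K * s) * star (K * s)‖ := by
        rw [CStarRing.norm_star_mul_self, CStarRing.norm_self_mul_star]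
    _ = ‖star K * p * K‖ := by
        rw [star_mul, hs.star_eq, hKs.star_eq, ← hss]; simp only [mul_assoc]
    _ ≤ ‖star K * c * K‖ := CStarAlgebra.norm_le_norm_of_nonneg_of_le
        (star_left_conjugate_nonneg hp K) (star_left_conjugate_le_conjugate hpc K)
    _ ≤ η := by
        rw [hKs.star_eq, e2]
        refine norm_cfc_le hη fun t ht => ?_
        have h1 := h t (hσ ht)
        have h2 : 0 ≤ t := hσ ht
        rw [mul_right_comm, Real.mul_self_sqrt h1.1, Real.norm_of_nonneg (mul_nonneg h1.1 h2)]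
        exact h1.2

theorem close {t η : ℝ} (ht : 0 ≤ t) (hη : 0 < η) : |t * (√(t + η))⁻¹ - √t| ≤ √η := by
  have h1 : 0 < √(t + η) := Real.sqrt_pos.2 (by linarith)
  have h2 : √t ≤ √(t + η) := Real.sqrt_le_sqrt (by linarith)
  have h3 : √(t + η) ≤ √t + √η := by
    rw [Real.sqrt_le_left (by positivity), add_sq, Real.sq_sqrt ht, Real.sq_sqrt hη.le]
    nlinarith [mul_nonneg (Real.sqrt_nonneg t) (Real.sqrt_nonneg η)]
  have h4 : t * (√(t + η))⁻¹ - √t = -(√t * (√(t + η))⁻¹ * (√(t + η) - √t)) := by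
    have := Real.mul_self_sqrt ht
    field_simp
    nlinarith
  have h5 : √t * (√(t + η))⁻¹ ≤ 1 := by rw [← div_eq_mul_inv, div_le_one h1]; exact h2
  rw [h4, abs_neg, abs_of_nonneg (mul_nonneg (by positivity) (by linarith))]
  nlinarith [mul_nonneg (Real.sqrt_nonneg t) (inv_pos.2 h1).le]

end FacX

open FacX in
/-- `p ≤ x* x` gives `y ∈ closure (x A)` with `y* y = p`. -/
theorem exists_fac {x p : A} (hp : 0 ≤ p) (h : p ≤ star x * x) :
    ∃ y ∈ closure (Set.range fun r => x * r), star y * y = p := by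
  set c := star x * x with hc
  have hc0 : 0 ≤ c := star_mul_self_nonneg x
  have hσ : spectrum ℝ c ⊆ Set.Ici 0 := fun t ht => spectrum_nonneg_of_nonneg hc0 ht
  obtain ⟨s, hs, hss⟩ : ∃ s : A, IsSelfAdjoint s ∧ s * s = p :=
    ⟨CFC.sqrt p, (CFC.sqrt_nonneg p).isSelfAdjoint, CFC.sqrt_mul_sqrt_self p hp⟩
  have Y : ∀ g : ℝ → ℝ, ContinuousOn g (Set.Ici 0) →
      star (x * (cfc g c * s)) * (x * (cfc g c * s)) = s * cfc (fun t => g t * t * g t) c * s := by
    intro g hg
    have hG : IsSelfAdjoint (cfc g c) := cfc_predicate _ _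
    rw [conj hc0.isSelfAdjoint (hg.mono hσ), star_mul, star_mul, hs.star_eq, hG.star_eq]
    generalize cfc g c = G
    rw [hc]
    simp only [mul_assoc]
  set η : ℕ → ℝ := fun n => 1 / (n + 1) with hη
  have η0 : ∀ n, 0 < η n := fun n => by positivity
  have ηl : Tendsto η atTop (𝓝 0) := tendsto_one_div_add_atTop_nhds_zero_nat
  set f : ℕ → ℝ → ℝ := fun n t => (√(t + η n))⁻¹ with hf
  have fc : ∀ n, ContinuousOn (f n) (Set.Ici 0) := fun n =>
    ContinuousOn.inv₀ (by fun_prop) fun t ht =>
      (Real.sqrt_pos.2 (add_pos_of_nonneg_of_pos ht (η0 n))).ne'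
  have hcau : CauchySeq fun n => x * (cfc (f n) c * s) := by
    refine cauchySeq_of_le_tendsto_0 (fun N => 2 * √(η N)) (fun n m N hn hm => ?_)
      (by simpa using ηl.sqrt.const_mul 2)
    have mono : ∀ k, N ≤ k → √(η k) ≤ √(η N) := fun k hk => Real.sqrt_le_sqrt
      (one_div_le_one_div_of_le (by positivity) (by exact_mod_cast Nat.succ_le_succ hk))
    rw [dist_eq_norm, ← mul_sub, ← sub_mul, ← cfc_sub _ _ c ((fc n).mono hσ) ((fc m).mono hσ)]
    refine (pow_le_pow_iff_left₀ (norm_nonneg _) (by positivity) two_ne_zero).1 ?_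
    rw [sq, ← CStarRing.norm_star_mul_self, Y (fun t => f n t - f m t) ((fc n).sub (fc m))]
    refine bound (u := fun t => (f n t - f m t) * t * (f n t - f m t)) hc0 hp h hs hss
      ((((fc n).sub (fc m)).mul continuousOn_id).mul
      ((fc n).sub (fc m))) (by positivity) fun t ht => ⟨?_, ?_⟩
    · rw [mul_right_comm]
      exact mul_nonneg (mul_self_nonneg _) ht
    · have h1 := abs_le.1 (close ht (η0 n))
      have h2 := abs_le.1 (close ht (η0 m))
      have h3 : |t * (f n t - f m t)| ≤ 2 * √(η N) := by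
        simp only [hf, mul_sub, abs_le]
        constructor <;> linarith [mono n hn, mono m hm]
      have h4 := pow_le_pow_left₀ (abs_nonneg _) h3 2
      rw [sq_abs] at h4
      refine le_trans (le_of_eq ?_) h4
      ring
  obtain ⟨y, hy⟩ := cauchySeq_tendsto_of_complete hcau
  refine ⟨y, mem_closure_of_tendsto hy (.of_forall fun n => ⟨_, rfl⟩), ?_⟩
  refine tendsto_nhds_unique (hy.star.mul hy) ?_
  rw [tendsto_iff_norm_sub_tendsto_zero]
  refine squeeze_zero (fun _ => norm_nonneg _) (fun n => ?_) ηl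
  have hg : ContinuousOn (fun t => f n t * t * f n t) (Set.Ici 0) :=
    ((fc n).mul continuousOn_id).mul (fc n)
  have e : p - s * cfc (fun t => f n t * t * f n t) c * s =
      s * cfc (fun t => 1 - f n t * t * f n t) c * s := by
    rw [cfc_sub _ _ c continuousOn_const (hg.mono hσ), cfc_const_one ℝ c, mul_sub, sub_mul, mul_one,
      hss]
  rw [Y _ (fc n), norm_sub_rev, e]
  refine bound (u := fun t => 1 - f n t * t * f n t) hc0 hp h hs hss (continuousOn_const.sub hg)
    (η0 n).le fun t ht => ?_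
  have h1 : 0 < t + η n := add_pos_of_nonneg_of_pos ht (η0 n)
  have h2 : 1 - f n t * t * f n t = η n / (t + η n) := by
    rw [mul_right_comm, hf]
    simp only
    rw [← mul_inv, Real.mul_self_sqrt h1.le]
    field_simp
    ring
  have := η0 n
  rw [h2]
  refine ⟨by positivity, ?_⟩
  rw [div_mul_eq_mul_div, div_le_iff₀ h1]
  nlinarith

/-- an approximate factorisation gives an exact one after a cut -/
theorem exists_exact' {x p : A} (hp : IsSelfAdjoint p) {ε : ℝ} (h : ‖star x * x - p‖ < ε) :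
    ∃ y ∈ closure (Set.range fun r => x * r), star y * y = cfc (fun t => max (t - ε) 0) p := by
  set δ := ‖star x * x - p‖ with hδ
  have h1 : p - algebraMap ℝ A δ ≤ star x * x := by
    have : IsSelfAdjoint (p - star x * x) := hp.sub (.star_mul_self x)
    have h2 := this.le_algebraMap_norm_self
    rw [norm_sub_rev, ← hδ] at h2
    exact sub_le_comm.1 h2
  set k : ℝ → ℝ := fun t => √(max (t - ε) 0 / max (t - δ) (ε - δ)) with hk
  have kc : Continuous k := Continuous.sqrt (Continuous.div (by fun_prop) (by fun_prop)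
    fun t => (lt_max_of_lt_right (by linarith)).ne')
  have hK : IsSelfAdjoint (cfc k p) := cfc_predicate _ _
  have e : star (cfc k p) * (p - algebraMap ℝ A δ) * cfc k p = cfc (fun t => max (t - ε) 0) p := by
    have e1 : p - algebraMap ℝ A δ = cfc (fun t : ℝ => t - δ) p := by
      rw [cfc_sub (fun t => t) (fun _ => δ) p continuousOn_id continuousOn_const, cfc_id' ℝ p,
        cfc_const δ p]
    rw [hK.star_eq, e1, ← cfc_mul _ _ p kc.continuousOn (by fun_prop),
      ← cfc_mul _ _ p (by fun_prop) kc.continuousOn]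
    refine cfc_congr fun t _ => ?_
    have h0 : 0 < max (t - δ) (ε - δ) := lt_max_of_lt_right (by linarith)
    simp only [hk]
    rw [mul_right_comm, Real.mul_self_sqrt (by positivity)]
    rcases le_total t ε with c | c
    · rw [max_eq_right (by linarith : t - ε ≤ 0)]
      simp
    · rw [max_eq_left (by linarith : ε - δ ≤ t - δ), div_mul_cancel₀ _ (by linarith)]
  have h2 := star_left_conjugate_le_conjugate h1 (cfc k p)
  rw [e] at h2
  obtain ⟨y, hy, hy'⟩ := exists_fac (x := x * cfc k p) (cfc_nonneg fun t _ => le_max_right _ _)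
    (by simpa only [star_mul, mul_assoc] using h2)
  refine ⟨y, closure_mono ?_ hy, hy'⟩
  rintro _ ⟨r, rfl⟩
  exact ⟨cfc k p * r, (mul_assoc _ _ _).symm⟩

end Crest.Agent.CStarFac
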